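import Vale.Agent.P218GP.Mass3
import Vale.Agent.P218PR.Main

/-! The static mass bound. -/

open MeasureTheory Set Filter Topology Metric
open scoped ENNReal NNReal RealInnerProductSpace

namespace Vale.Agent.P218DY

open Vale.Agent.P218 Vale.Agent.P218.H313
open Vale.Agent.P218.H63 (gaussArea)

variable {E : Type*} [NormedAddCommGroup E] [InnerProductSpace ℝ E] [FiniteDimensional ℝ E]
  [MeasurableSpace E] [BorelSpace E]
variable {m : ℕ}

/-- the static mass bound -/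
theorem mass_bound (hm : 0 < m) (hE : Module.finrank ℝ E = m + 1) (c K CR : ℝ) (q : ℕ) :
    ∃ R₀ > 0, ∃ r₂ > 0, ∀ r₁, 0 < r₁ → r₁ ≤ r₂ → ∃ Q₀ > 0, ∃ C : ℝ, 0 ≤ C ∧
      ∀ (W : E → ℝ) (μ : Measure E) (T : E → Submodule ℝ E) (H : E → E) (σ Q : ℝ),
        TubeG W c K → GSlice m μ T H → Intg m μ T → Ratio m μ CR →
        (∀ y, W y = 0 → |dfc W y| ≤ σ * (1 + ‖y‖) ^ q) →
        (∀ x, W x = 0 → ‖x‖ ≤ R₀ → th m μ x r₁ ≤ 5 / 4 * om m) →
        DD μ W 0 + TG μ T W 0 + dis μ T H + σ ^ 2 ≤ Q → Q ≤ Q₀ →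
        ENNReal.ofReal (FA μ)
          ≤ gaussArea m {x | W x = 0} univ + ENNReal.ofReal (C * Q ^ (3 / 5 : ℝ)) :=
  mass_bound_of hm hE c K CR q (Vale.Agent.P218PR.propagate hm hE c K CR)

end Vale.Agent.P218DY
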