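import Vale.Agent.P218DY.Tube2
import Vale.Agent.P218.H313.C3
import Vale.Agent.P218.H313.K

/-! Good points: integral estimates at a good point and comparison of kernels. -/

open MeasureTheory Set Filter Topology Metric
open scoped ENNReal NNReal RealInnerProductSpace

namespace Vale.Agent.P218DY

open Vale.Agent.P214 (proj IsApproxTangent)
open Vale.Agent.P218 Vale.Agent.P218.H313

set_option linter.unusedSectionVars false
set_option linter.unusedVariables false

variable {E : Type*} [NormedAddCommGroup E] [InnerProductSpace ℝ E] [FiniteDimensional ℝ E]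
  [MeasurableSpace E] [BorelSpace E]

/-- good points at scale `r₀` -/
def Good (m : ℕ) (μ : Measure E) (T : E → Submodule ℝ E) (H : E → E) (W : E → ℝ)
    (R r₀ γ : ℝ) (p : E) : Prop :=
  ‖p‖ ≤ R ∧ (∀ b < om m, ∀ᶠ r in 𝓝[>] (0 : ℝ), b ≤ th m μ p r) ∧
    ∀ t, 0 < t → t ≤ r₀ → ∫ y in closedBall p t,
      (tau T W y ^ 2 + ‖vel T H y‖ ^ 2 + W y ^ 2 / r₀ ^ 2) ∂μ ≤ γ * t ^ m

namespace GP

variable {m : ℕ} {W : E → ℝ} {c K C R r₀ γ : ℝ} {μ : Measure E} {T : E → Submodule ℝ E}
  {H : E → E}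

/-- the integrand in the definition of good points -/
noncomputable def gi (T : E → Submodule ℝ E) (H : E → E) (W : E → ℝ) (r₀ : ℝ) (y : E) : ℝ :=
  tau T W y ^ 2 + ‖vel T H y‖ ^ 2 + W y ^ 2 / r₀ ^ 2

lemma gi_nonneg (y : E) : 0 ≤ gi T H W r₀ y := by
  unfold gi; positivity

lemma tau_sq_le (y : E) : tau T W y ^ 2 ≤ gi T H W r₀ y := by
  unfold gi
  have h1 : 0 ≤ ‖vel T H y‖ ^ 2 := by positivity
  have h2 : 0 ≤ W y ^ 2 / r₀ ^ 2 := by positivity
  linarith

lemma vel_sq_le (y : E) : ‖vel T H y‖ ^ 2 ≤ gi T H W r₀ y := by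
  unfold gi
  have h1 : 0 ≤ tau T W y ^ 2 := by positivity
  have h2 : 0 ≤ W y ^ 2 / r₀ ^ 2 := by positivity
  linarith

lemma W_sq_le (y : E) : W y ^ 2 / r₀ ^ 2 ≤ gi T H W r₀ y := by
  unfold gi
  have h1 : 0 ≤ tau T W y ^ 2 := by positivity
  have h2 : 0 ≤ ‖vel T H y‖ ^ 2 := by positivity
  linarith

lemma vel_sq_integrableOn (hS : Slice m μ T H) {A : Set E} (hA : IsCompact A) :
    IntegrableOn (fun y => ‖vel T H y‖ ^ 2) A μ := by
  have : ProperSpace E := FiniteDimensional.proper_real E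
  have := hS.mc.fin
  have h1 : IntegrableOn (fun y : E => ‖y‖ ^ 2) A μ :=
    (continuous_norm.pow 2).continuousOn.integrableOn_compact hA
  have h2 : IntegrableOn (fun y => 2 * ‖H y‖ ^ 2 + ‖y‖ ^ 2) A μ :=
    ((hS.mc.locL2 A hA).const_mul 2).add h1
  refine Integrable.mono' h2 (hS.vel_meas.norm.pow 2).restrict (Eventually.of_forall fun y => ?_)
  rw [norm_pow, norm_norm]
  have h3 : ‖vel T H y‖ ≤ ‖H y‖ + 1 / 2 * ‖y‖ := by
    unfold vel
    refine (norm_add_le _ _).trans ?_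
    rw [norm_smul, Real.norm_of_nonneg (by norm_num : (0 : ℝ) ≤ 1 / 2)]
    have := norm_sub_proj_le (T y) y
    linarith
  have h4 : ‖vel T H y‖ ^ 2 ≤ (‖H y‖ + 1 / 2 * ‖y‖) ^ 2 := by gcongr
  nlinarith [sq_nonneg (‖H y‖ - 1 / 2 * ‖y‖), sq_nonneg ‖y‖]

lemma gi_integrableOn (hW : TubeG W c K) (hS : Slice m μ T H) (r₀ : ℝ) {A : Set E}
    (hA : IsCompact A) : IntegrableOn (gi T H W r₀) A μ := by
  have : ProperSpace E := FiniteDimensional.proper_real E
  have := hS.mc.fin
  have h1 := hS.sq_proj_grad_integrableOn (hW.smooth.of_le (by norm_num)) hA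
  have h2 := vel_sq_integrableOn hS hA
  have h3 : IntegrableOn (fun y => W y ^ 2 / r₀ ^ 2) A μ :=
    ((hW.cont.pow 2).div_const _).continuousOn.integrableOn_compact hA
  exact (h1.add h2).add h3

/-- integrals over balls centred at a good point -/
lemma int_le_good (hW : TubeG W c K) (hS : Slice m μ T H) (hR : Ratio m μ C) {p : E}
    (hp : Good m μ T H W R r₀ γ p) {t : ℝ} (ht : 0 < t) (htr : t ≤ r₀) (hr1 : r₀ ≤ 1)
    {u : E → ℝ} (hu : IntegrableOn u (closedBall p t) μ) {a b : ℝ} (ha : 0 ≤ a) (hb : 0 ≤ b)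
    (h : ∀ᵐ y ∂μ, y ∈ closedBall p t → u y ≤ a + b * gi T H W r₀ y) :
    ∫ y in closedBall p t, u y ∂μ ≤ (a * C + b * γ) * t ^ m := by
  have : ProperSpace E := FiniteDimensional.proper_real E
  have := hS.mc.fin
  have hB := isCompact_closedBall p t
  have i1 : IntegrableOn (fun _ : E => a) (closedBall p t) μ :=
    (locallyIntegrable_const a).integrableOn_isCompact hB
  have i2 := gi_integrableOn hW hS r₀ hB
  have h1 : ∫ y in closedBall p t, u y ∂μ
      ≤ ∫ y in closedBall p t, (a + b * gi T H W r₀ y) ∂μ :=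
    integral_mono_ae hu (i1.add (i2.const_mul b))
      ((ae_restrict_iff' measurableSet_closedBall).2 h)
  rw [integral_add i1 (i2.const_mul b), setIntegral_const, integral_const_mul, smul_eq_mul] at h1
  have h2 := hR p t ht (htr.trans hr1)
  have h3 : ∫ y in closedBall p t, gi T H W r₀ y ∂μ ≤ γ * t ^ m := hp.2.2 t ht htr
  have h4 := mul_le_mul_of_nonneg_left h3 hb
  have h5 := mul_le_mul_of_nonneg_right h2 ha
  linarith

/-- the mean curvature near a good point -/
lemma norm_H_le_gi (hE : Module.finrank ℝ E = m + 1) (hW : TubeG W c K) (hR0 : 0 ≤ R)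
    (hr0 : 0 < r₀) (hrc : r₀ ≤ c) {y : E} (hy : ‖y‖ ≤ R + 1)
    (hT : Module.finrank ℝ (T y) = m) :
    ‖H y‖ ≤ (R + 1) * (K + 2) + (R + 1) * 2 * gi T H W r₀ y := by
  have h1 := hW.norm_H_le hE H hT
  have hc := hW.cpos
  have hK := hW.K0
  have g0 : 0 ≤ gi T H W r₀ y := gi_nonneg y
  have h2 : ‖vel T H y‖ ≤ 1 + gi T H W r₀ y := by
    have := vel_sq_le (T := T) (H := H) (W := W) (r₀ := r₀) y
    nlinarith [sq_nonneg (‖vel T H y‖ - 1), norm_nonneg (vel T H y)]
  have h3 : W y ^ 2 / c ^ 2 ≤ gi T H W r₀ y := by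
    refine le_trans ?_ (W_sq_le y)
    gcongr
  have h4 : ‖y‖ / 2 * tau T W y ≤ (R + 1) / 2 * 1 :=
    mul_le_mul (by linarith) (hW.tau_le_one T y) (TubeG.tau_nonneg T W y) (by positivity)
  have h5 : ‖y‖ / 2 * (W y ^ 2 / c ^ 2) ≤ (R + 1) / 2 * gi T H W r₀ y :=
    mul_le_mul (by linarith) h3 (by positivity) (by positivity)
  have h6 : 0 ≤ R * K := by positivity
  have h7 : 0 ≤ R * gi T H W r₀ y := by positivity
  nlinarith

lemma norm_le_of_mem {p y : E} {t : ℝ} (hp : ‖p‖ ≤ R) (ht : t ≤ 1) (hy : y ∈ closedBall p t) :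
    ‖y‖ ≤ R + 1 := by
  rw [mem_closedBall, dist_eq_norm] at hy
  have h1 := norm_add_le (y - p) p
  rw [sub_add_cancel] at h1
  linarith

/-- the error term of the monotonicity formula for a weight with values in `[0, 1]` -/
lemma err_int_le (hE : Module.finrank ℝ E = m + 1) (hW : TubeG W c K) (hS : Slice m μ T H)
    (hR : Ratio m μ C) (hR0 : 0 ≤ R) (hr0 : 0 < r₀) (hrc : r₀ ≤ c) {θ : ℝ} (hθ : 0 < θ)
    (hθ1 : θ ≤ 1) {p : E} (hp : Good m μ T H W R r₀ (θ ^ 2) p) {h : E → ℝ} (hh : ContDiff ℝ 1 h)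
    (h1 : ∀ y, h y ≤ 1) {σ : ℝ} (hσ : 0 ≤ σ)
    (hg : ∀ y, ‖proj (T y) (grad h y)‖ ≤ σ * tau T W y) {t : ℝ} (ht : 0 < t) (htr : t ≤ r₀) :
    ∫ y in closedBall p t, err T H h y ∂μ
      ≤ (σ * θ * (C + 1) + (R + 1) * ((K + 2) * C + 2)) * t ^ m := by
  have : ProperSpace E := FiniteDimensional.proper_real E
  have hr1 : r₀ ≤ 1 := by linarith [hW.c_le]
  have hK := hW.K0
  have key := int_le_good hW hS hR hp ht htr hr1
    (hS.err_integrableOn hh (isCompact_closedBall p t))
    (a := σ * θ + (R + 1) * (K + 2)) (b := σ / θ + (R + 1) * 2) (by positivity) (by positivity) (by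
      filter_upwards [hS.mc.dim] with y hT hy
      have a1 := norm_H_le_gi (H := H) hE hW hR0 hr0 hrc
        (norm_le_of_mem hp.1 (htr.trans hr1) hy) hT
      have a2 : h y * ‖H y‖ ≤ ‖H y‖ := mul_le_of_le_one_left (norm_nonneg _) (h1 y)
      have a3 : tau T W y ≤ θ + gi T H W r₀ y / θ := by
        have b1 := tau_sq_le (T := T) (H := H) (W := W) (r₀ := r₀) y
        have b2 : tau T W y ≤ θ + tau T W y ^ 2 / θ := by
          rw [← sub_le_iff_le_add', le_div_iff₀ hθ]
          nlinarith [sq_nonneg (tau T W y - θ), TubeG.tau_nonneg T W y]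
        have b3 : tau T W y ^ 2 / θ ≤ gi T H W r₀ y / θ := by gcongr
        linarith
      have a4 := mul_le_mul_of_nonneg_left a3 hσ
      have a5 := hg y
      have e : σ * (θ + gi T H W r₀ y / θ) = σ * θ + σ / θ * gi T H W r₀ y := by ring
      unfold err
      linarith)
  refine key.trans (mul_le_mul_of_nonneg_right ?_ (by positivity))
  have e : σ / θ * θ ^ 2 = σ * θ := by field_simp
  have h2 : θ ^ 2 ≤ 1 := by nlinarith
  have h3 : (R + 1) * 2 * θ ^ 2 ≤ (R + 1) * 2 * 1 := by gcongr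
  nlinarith

lemma th_eq_JJ (x : E) (t : ℝ) : th m μ x t = JJ m μ (fun _ => 1) x t := by
  simp [th, JJ]

lemma JJ_add_JJ [IsFiniteMeasureOnCompacts μ] {h : E → ℝ} (hh : Continuous h) (x : E) {t : ℝ}
    (ht : 0 < t) : JJ m μ h x t + JJ m μ (fun y => 1 - h y) x t = th m μ x t := by
  have h2 : Continuous fun y => 1 - h y := continuous_const.sub hh
  unfold JJ th
  rw [← add_div, ← integral_add (integrable_ker_mul hh x ht) (integrable_ker_mul h2 x ht)]
  congr 1
  refine integral_congr_ae (Eventually.of_forall fun y => ?_)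
  simp only
  ring

/-- comparison of kernels centred at nearby points -/
lemma JJ_compare [IsFiniteMeasureOnCompacts μ] (hR : Ratio m μ C) {h : E → ℝ} (hh : Continuous h)
    (h0 : ∀ y, 0 ≤ h y) (h1 : ∀ y, h y ≤ 1) {x x' : E} {t : ℝ} (ht : 0 < t) (ht1 : 2 * t ≤ 1)
    (hd : dist x x' ≤ t) :
    JJ m μ h x t ≤ JJ m μ h x' t + 4 * (t⁻¹ * dist x x') * (C * 2 ^ m) := by
  have hprop : ProperSpace E := FiniteDimensional.proper_real E
  have i1 := integrable_ker_mul (μ := μ) hh x ht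
  have i2 := integrable_ker_mul (μ := μ) hh x' ht
  have i3 : Integrable ((closedBall x (2 * t)).indicator
      fun _ => 4 * (t⁻¹ * dist x x')) μ :=
    (integrable_indicator_iff measurableSet_closedBall).2
      ((locallyIntegrable_const _).integrableOn_isCompact (isCompact_closedBall _ _))
  have e5 : 0 ≤ t⁻¹ * dist x x' := mul_nonneg (inv_pos.2 ht).le dist_nonneg
  have key : ∫ y, (ker (t⁻¹ • (y - x)) * h y - ker (t⁻¹ • (y - x')) * h y) ∂μ
      ≤ ∫ y, (closedBall x (2 * t)).indicator (fun _ => 4 * (t⁻¹ * dist x x')) y ∂μ := by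
    refine integral_mono (i1.sub i2) i3 fun y => ?_
    simp only
    by_cases hy : y ∈ closedBall x (2 * t)
    · rw [indicator_of_mem hy]
      have e1 := abs_ker_sub_le (t⁻¹ • (y - x)) (t⁻¹ • (y - x'))
      have e2 : ‖t⁻¹ • (y - x) - t⁻¹ • (y - x')‖ = t⁻¹ * dist x x' := by
        rw [← smul_sub, norm_smul, norm_inv, Real.norm_of_nonneg ht.le, dist_comm, dist_eq_norm]
        congr 2
        abel
      rw [e2] at e1
      have e3 := le_abs_self (ker (t⁻¹ • (y - x)) - ker (t⁻¹ • (y - x')))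
      have e4 : ker (t⁻¹ • (y - x)) * h y - ker (t⁻¹ • (y - x')) * h y
          = (ker (t⁻¹ • (y - x)) - ker (t⁻¹ • (y - x'))) * h y := by ring
      rw [e4]
      calc (ker (t⁻¹ • (y - x)) - ker (t⁻¹ • (y - x'))) * h y
          ≤ (4 * (t⁻¹ * dist x x')) * h y := mul_le_mul_of_nonneg_right (e3.trans e1) (h0 y)
        _ ≤ (4 * (t⁻¹ * dist x x')) * 1 := mul_le_mul_of_nonneg_left (h1 y) (by positivity)
        _ = _ := mul_one _
    · rw [indicator_of_notMem hy,
        ker_scale_zero' ht (fun h => hy (closedBall_subset_closedBall (by linarith) h))]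
      have := mul_nonneg (kern_nonneg (t⁻¹ • (y - x'))) (h0 y)
      linarith
  rw [integral_sub i1 i2, integral_indicator measurableSet_closedBall, setIntegral_const,
    smul_eq_mul] at key
  have hM := hR x (2 * t) (by linarith) ht1
  have e6 : μ.real (closedBall x (2 * t)) * (4 * (t⁻¹ * dist x x'))
      ≤ (C * (2 * t) ^ m) * (4 * (t⁻¹ * dist x x')) :=
    mul_le_mul_of_nonneg_right hM (by positivity)
  have htm : 0 < t ^ m := by positivity
  unfold JJ
  rw [div_add' _ _ _ htm.ne', div_le_div_iff_of_pos_right htm]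
  have e7 : (C * (2 * t) ^ m) * (4 * (t⁻¹ * dist x x'))
      = 4 * (t⁻¹ * dist x x') * (C * 2 ^ m) * t ^ m := by rw [mul_pow]; ring
  linarith

/-- the density at a point with an approximate tangent plane -/
lemma tendsto_th {p : E} {q : ℕ} {T' : Submodule ℝ E} (h : IsApproxTangent m μ p q T') :
    Tendsto (fun r => th m μ p r) (𝓝[>] 0) (𝓝 (q * om m)) := by
  have h1 := h.2 ker continuous_ker ker_compact
  have h2 : ∫ y in (T' : Set E), ker y ∂(μH[m] : Measure E) = om m := by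
    rw [integral_eq_lintegral_of_nonneg_ae (Eventually.of_forall fun y => ker_nonneg _)
      continuous_ker.aestronglyMeasurable]
    have h3 := lintegral_ker_plane h.1 one_pos
    simp only [inv_one, one_smul, one_pow, one_mul] at h3
    rw [h3, ENNReal.toReal_ofReal (om_pos m).le]
  rw [h2] at h1
  exact h1

end GP

end Vale.Agent.P218DY
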