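import Vale.Agent.P218GP.Basic

/-! Good points: multiplicity one, and injectivity of the foot map on the set of good points. -/

open MeasureTheory Set Filter Topology Metric
open scoped ENNReal NNReal RealInnerProductSpace

namespace Vale.Agent.P218DY

open Vale.Agent.P214 (proj IsApproxTangent)
open Vale.Agent.P218 Vale.Agent.P218.H313

set_option linter.unusedSectionVars false
set_option linter.unusedVariables false

variable {E : Type*} [NormedAddCommGroup E] [InnerProductSpace ℝ E] [FiniteDimensional ℝ E]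
  [MeasurableSpace E] [BorelSpace E]

namespace GP

/-- the smallness conditions on the parameters -/
structure Par (m : ℕ) (c K C R r₀ θ β L : ℝ) : Prop where
  C1 : 1 ≤ C
  R0 : 0 ≤ R
  r0 : 0 < r₀
  rc : r₀ ≤ c
  θ0 : 0 < θ
  θ1 : θ ≤ 1
  β0 : 0 < β
  L1 : 1 ≤ L
  A1 : (R + 1) * ((K + 2) * C + 2) * r₀ ≤ om m / 32
  A2 : (R + 1) * ((K + 2) * C + 2) * r₀ ≤ β ^ 2 * om m / 8
  θβ : θ ≤ β ^ 2 * om m / 8
  βL : β * L ≤ 1 / 4
  βC : 4 * β * (C * 2 ^ m) ≤ om m / 32
  LC : 4 * (C * 2 ^ m) ≤ L * om m / 16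
  Lθ : 16 * L * θ * (C + 1) ≤ om m / 16

variable {m : ℕ} {W : E → ℝ} {c K C R r₀ θ β L : ℝ} {μ : Measure E} {T : E → Submodule ℝ E}
  {H : E → E}

lemma Par.β_le (hP : Par m c K C R r₀ θ β L) : β ≤ 1 / 4 := by
  have h1 := hP.βL
  have h2 := hP.L1
  have h3 := hP.β0
  nlinarith

/-- good points are close to the zero set -/
lemma W_small (hE : Module.finrank ℝ E = m + 1) (hP : Par m c K C R r₀ θ β L) (hW : TubeG W c K)
    (hS : Slice m μ T H) (hR : Ratio m μ C) {p : E} (hp : Good m μ T H W R r₀ (θ ^ 2) p) :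
    |W p| ≤ β * r₀ := by
  have : ProperSpace E := FiniteDimensional.proper_real E
  have hfin := hS.mc.fin
  have hr0 := hP.r0
  have hR0 := hP.R0
  have hK := hW.K0
  have hC := hP.C1
  have hr1 : r₀ ≤ 1 := by linarith [hW.c_le, hP.rc]
  have hθ2 : θ ^ 2 ≤ θ := by nlinarith [hP.θ0, hP.θ1]
  have hθ3 : θ ^ 2 ≤ 1 := hθ2.trans hP.θ1
  have hW1 : ContDiff ℝ 1 W := hW.smooth.of_le (by norm_num)
  have hh : ContDiff ℝ 1 (fun y => W y ^ 2) := hW1.pow 2
  set w2 : ℝ := 2 * (W p ^ 2 + r₀ ^ 2) with hw2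
  have hw20 : 0 ≤ w2 := by positivity
  set A : ℝ := (R + 1) * ((K + 2) * C + 2) with hA
  have hA0 : 0 ≤ A := by positivity
  have herr : ∀ t, 0 < t → t ≤ r₀ → ∫ y in closedBall p t, err T H (fun y => W y ^ 2) y ∂μ
      ≤ (r₀ * θ ^ 2 + w2 * A) * t ^ m := by
    intro t ht htr
    have key := int_le_good hW hS hR hp ht htr hr1
      (hS.err_integrableOn hh (isCompact_closedBall p t))
      (a := w2 * ((R + 1) * (K + 2))) (b := r₀ + w2 * ((R + 1) * 2)) (by positivity)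
      (by positivity) (by
        filter_upwards [hS.mc.dim] with y hT hy
        have a1 := norm_H_le_gi (H := H) hE hW hR0 hr0 hP.rc
          (norm_le_of_mem hp.1 (htr.trans hr1) hy) hT
        have a2 : W y ^ 2 ≤ w2 := by
          have b1 := hW.lip p y
          rw [mem_closedBall, dist_eq_norm] at hy
          have b2 : |W y - W p| ≤ r₀ := b1.trans (hy.trans htr)
          have b3 : (W y - W p) ^ 2 ≤ r₀ ^ 2 := by
            rw [← sq_abs]; gcongr
          rw [hw2]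
          nlinarith [sq_nonneg (W y - 2 * W p)]
        have a3 : W y ^ 2 * ‖H y‖
            ≤ w2 * ((R + 1) * (K + 2) + (R + 1) * 2 * gi T H W r₀ y) :=
          mul_le_mul a2 a1 (norm_nonneg _) hw20
        have a4 : ‖proj (T y) (grad (fun y => W y ^ 2) y)‖ ≤ r₀ * gi T H W r₀ y := by
          rw [grad_sq (hW.diff y), map_smul, norm_smul, Real.norm_eq_abs, abs_mul, abs_two]
          change 2 * |W y| * tau T W y ≤ _
          have b1 : 2 * |W y| * tau T W y ≤ r₀ * (tau T W y ^ 2 + W y ^ 2 / r₀ ^ 2) := by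
            have e : r₀ * (tau T W y ^ 2 + W y ^ 2 / r₀ ^ 2) - 2 * |W y| * tau T W y
                = (r₀ * tau T W y - |W y|) ^ 2 / r₀ := by
              rw [← sq_abs (W y)]; field_simp; ring
            have : 0 ≤ (r₀ * tau T W y - |W y|) ^ 2 / r₀ := by positivity
            linarith
          refine b1.trans (mul_le_mul_of_nonneg_left ?_ hr0.le)
          unfold gi
          have : 0 ≤ ‖vel T H y‖ ^ 2 := by positivity
          linarith
        unfold err
        linarith)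
    refine key.trans (mul_le_mul_of_nonneg_right ?_ (by positivity))
    have h3 : w2 * ((R + 1) * 2) * θ ^ 2 ≤ w2 * ((R + 1) * 2) * 1 := by gcongr
    rw [hA]
    nlinarith
  have h1 := om_mul_le hS hh (fun y => sq_nonneg _) hp.2.1 hr0 herr
  have h2 := JJ_le (m := m) (μ := μ) hh.continuous (fun y => sq_nonneg (W y)) (x := p) hr0
  have h3 : ∫ y in closedBall p r₀, W y ^ 2 ∂μ ≤ (0 * C + r₀ ^ 2 * θ ^ 2) * r₀ ^ m := by
    refine int_le_good hW hS hR hp hr0 le_rfl hr1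
      (hh.continuous.continuousOn.integrableOn_compact (isCompact_closedBall _ _)) le_rfl
      (by positivity) (Eventually.of_forall fun y _ => ?_)
    have b1 := W_sq_le (T := T) (H := H) (W := W) (r₀ := r₀) y
    rw [div_le_iff₀ (by positivity)] at b1
    linarith
  have h4 : JJ m μ (fun y => W y ^ 2) p r₀ ≤ r₀ ^ 2 * θ ^ 2 := by
    refine h2.trans ?_
    rw [div_le_iff₀ (by positivity)]
    linarith
  have hom := om_pos m
  have h5 : A * r₀ ≤ om m / 32 := hP.A1
  have h6 : A * r₀ ≤ β ^ 2 * om m / 8 := hP.A2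
  have h7 : θ ^ 2 ≤ β ^ 2 * om m / 8 := hθ2.trans hP.θβ
  have h8 : om m * W p ^ 2 ≤ 2 * (r₀ ^ 2 * θ ^ 2) + 2 * (W p ^ 2 * (A * r₀))
      + 2 * (r₀ ^ 2 * (A * r₀)) := by
    have e : (r₀ * θ ^ 2 + w2 * A) * r₀
        = r₀ ^ 2 * θ ^ 2 + 2 * (W p ^ 2 * (A * r₀)) + 2 * (r₀ ^ 2 * (A * r₀)) := by
      rw [hw2]; ring
    linarith
  have h9 : r₀ ^ 2 * θ ^ 2 ≤ r₀ ^ 2 * (β ^ 2 * om m / 8) := by gcongr
  have h10 : W p ^ 2 * (A * r₀) ≤ W p ^ 2 * (om m / 32) := by gcongr
  have h11 : r₀ ^ 2 * (A * r₀) ≤ r₀ ^ 2 * (β ^ 2 * om m / 8) := by gcongr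
  have h12 : om m * W p ^ 2 ≤ om m * (β * r₀) ^ 2 := by
    have b1 : 0 ≤ om m * W p ^ 2 := by positivity
    have b2 : 0 ≤ om m * (β * r₀) ^ 2 := by positivity
    nlinarith
  have h13 : W p ^ 2 ≤ (β * r₀) ^ 2 := le_of_mul_le_mul_left h12 hom
  exact abs_le_of_sq_le_sq' h13 (by have := hP.β0; positivity) |> fun h => abs_le.2 h

lemma W_lt (hE : Module.finrank ℝ E = m + 1) (hP : Par m c K C R r₀ θ β L) (hW : TubeG W c K)
    (hS : Slice m μ T H) (hR : Ratio m μ C) {p : E} (hp : Good m μ T H W R r₀ (θ ^ 2) p) :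
    |W p| < c := by
  have h1 := W_small hE hP hW hS hR hp
  have h2 := hP.β_le
  have h3 := hP.rc
  have h4 := hP.r0
  nlinarith

/-- the upper density bound at good points -/
lemma th_le (hE : Module.finrank ℝ E = m + 1) (hP : Par m c K C R r₀ θ β L) (hW : TubeG W c K)
    (hS : Slice m μ T H) (hR : Ratio m μ C)
    (hth : ∀ x, W x = 0 → ‖x‖ ≤ R + 1 → th m μ x r₀ ≤ 3 / 2 * om m) {p : E}
    (hp : Good m μ T H W R r₀ (θ ^ 2) p) {t : ℝ} (ht : 0 < t) (htr : t ≤ r₀) :
    th m μ p t ≤ 25 / 16 * om m := by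
  have hfin := hS.mc.fin
  have hr0 := hP.r0
  have hK := hW.K0
  have hC := hP.C1
  have hR0 := hP.R0
  have hr4 : r₀ ≤ 1 / 4 := by linarith [hW.c_le, hP.rc]
  have h1 := W_small hE hP hW hS hR hp
  have h2 := W_lt hE hP hW hS hR hp
  have hβ := hP.β_le
  have hd : dist p (ft W p) ≤ β * r₀ := by
    rw [dist_comm, dist_eq_norm]; exact (hW.norm_ft_sub p).trans h1
  have h3 : th m μ (ft W p) r₀ ≤ 3 / 2 * om m := by
    refine hth _ (hW.ft_zero h2) ?_
    have := hW.norm_ft_le p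
    have := hp.1
    nlinarith
  have h4 := JJ_compare (m := m) hR (h := fun _ => (1 : ℝ)) continuous_const
    (fun _ => zero_le_one) (fun _ => le_rfl) (x := p) (x' := ft W p) hr0 (by linarith)
    (by nlinarith)
  have h5 : r₀⁻¹ * dist p (ft W p) ≤ β := by
    rw [inv_mul_le_iff₀ hr0]; linarith
  have h6 : 4 * (r₀⁻¹ * dist p (ft W p)) * (C * 2 ^ m) ≤ 4 * β * (C * 2 ^ m) := by gcongr
  have h7 := JJ_mono hS (h := fun _ => (1 : ℝ)) contDiff_const (fun _ => zero_le_one) (x := p)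
    ht htr (fun s hs hsr => err_int_le hE hW hS hR hP.R0 hr0 hP.rc hP.θ0 hP.θ1 hp contDiff_const
      (fun _ => le_rfl) (σ := 0) le_rfl (fun y => by
        have : grad (fun _ : E => (1 : ℝ)) y = 0 := grad_unique fun v => by simp
        rw [this]; simp) hs hsr)
  rw [← th_eq_JJ, ← th_eq_JJ] at h4 h7
  have h8 := hP.A1
  have h9 := hP.βC
  have h10 : (R + 1) * ((K + 2) * C + 2) * (r₀ - t) ≤ (R + 1) * ((K + 2) * C + 2) * r₀ := by
    gcongr; linarith
  simp only [zero_mul, zero_add] at h7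
  linarith

/-- the multiplicity at a good point -/
lemma mult_le (hE : Module.finrank ℝ E = m + 1) (hP : Par m c K C R r₀ θ β L) (hW : TubeG W c K)
    (hS : Slice m μ T H) (hR : Ratio m μ C)
    (hth : ∀ x, W x = 0 → ‖x‖ ≤ R + 1 → th m μ x r₀ ≤ 3 / 2 * om m) {p : E}
    (hp : Good m μ T H W R r₀ (θ ^ 2) p) {q : ℕ} {T' : Submodule ℝ E}
    (hq : IsApproxTangent m μ p q T') : q ≤ 1 := by
  have h1 : (q : ℝ) * om m ≤ 25 / 16 * om m := by
    refine le_of_tendsto (tendsto_th hq) ?_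
    filter_upwards [Ioc_mem_nhdsGT hP.r0] with t ht
    exact th_le hE hP hW hS hR hth hp ht.1 ht.2
  have h2 : (q : ℝ) ≤ 25 / 16 := le_of_mul_le_mul_right h1 (om_pos m)
  have h3 : (q : ℝ) < 2 := by linarith
  have h4 : q < 2 := by exact_mod_cast h3
  omega

/-- two close good points are not on top of each other -/
lemma W_sub_le (hE : Module.finrank ℝ E = m + 1) (hP : Par m c K C R r₀ θ β L) (hW : TubeG W c K)
    (hS : Slice m μ T H) (hR : Ratio m μ C)
    (hth : ∀ x, W x = 0 → ‖x‖ ≤ R + 1 → th m μ x r₀ ≤ 3 / 2 * om m) {p p' : E}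
    (hp : Good m μ T H W R r₀ (θ ^ 2) p) (hp' : Good m μ T H W R r₀ (θ ^ 2) p')
    (hd : L * dist p p' ≤ r₀) : W p - W p' ≤ dist p p' / 2 := by
  by_contra hcon
  rw [not_le] at hcon
  have hfin := hS.mc.fin
  have hK := hW.K0
  have hC := hP.C1
  have hR0 := hP.R0
  have hL := hP.L1
  have hθ := hP.θ0
  have hr4 : r₀ ≤ 1 / 4 := by linarith [hW.c_le, hP.rc]
  set d := dist p p' with hdd
  have hd0 : 0 < d := by
    have h1 := hW.lip p' p
    rw [← dist_eq_norm, ← hdd] at h1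
    have h2 := le_abs_self (W p - W p')
    linarith
  have hs : 0 < d / 4 := by linarith
  have hW1 : ContDiff ℝ 1 W := hW.smooth.of_le (by norm_num)
  have hw : ContDiff ℝ 1 (fun y => W y - W p') := hW1.sub contDiff_const
  set h : E → ℝ := fun y => gam (d / 4) (W y - W p') with hh
  have hhc : ContDiff ℝ 1 h := (contDiff_gam _).comp hw
  have hh0 : ∀ y, 0 ≤ h y := fun y => gam_nonneg _ _
  have hh1 : ∀ y, h y ≤ 1 := fun y => gam_le_one _ _
  have hgw : ∀ y, grad (fun y => W y - W p') y = grad W y := fun y =>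
    grad_unique fun v => by rw [fderiv_sub_const, inner_grad]
  have hg : ∀ y, ‖proj (T y) (grad h y)‖ ≤ 4 / (d / 4) * tau T W y := by
    intro y
    rw [hh, grad_gam hw, hgw, map_smul, norm_smul, Real.norm_eq_abs]
    exact mul_le_mul_of_nonneg_right (abs_gam'_le hs _) (norm_nonneg _)
  have hhc' : ContDiff ℝ 1 (fun y => 1 - h y) := contDiff_const.sub hhc
  have hg' : ∀ y, ‖proj (T y) (grad (fun y => 1 - h y) y)‖ ≤ 4 / (d / 4) * tau T W y := by
    intro y
    have e : grad (fun y => 1 - h y) y = - grad h y :=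
      grad_unique fun v => by
        rw [fderiv_const_sub, inner_neg_left, inner_grad]; rfl
    rw [e, map_neg, norm_neg]
    exact hg y
  have ht : 0 < L * d := by positivity
  have k1 := om_mul_le hS hhc hh0 hp.2.1 ht (fun s hs0 hsr =>
    err_int_le hE hW hS hR hP.R0 hP.r0 hP.rc hP.θ0 hP.θ1 hp hhc hh1 (by positivity) hg hs0
      (hsr.trans hd))
  have k2 := om_mul_le hS hhc' (fun y => by linarith [hh1 y]) hp'.2.1 ht (fun s hs0 hsr =>
    err_int_le hE hW hS hR hP.R0 hP.r0 hP.rc hP.θ0 hP.θ1 hp' hhc' (fun y => by linarith [hh0 y])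
      (by positivity) hg' hs0 (hsr.trans hd))
  have e1 : h p = 1 := gam_one hs (by linarith)
  have e2 : h p' = 0 := gam_zero hs (by linarith)
  have k3 := JJ_compare (m := m) hR hhc'.continuous (fun y => by linarith [hh1 y])
    (fun y => by linarith [hh0 y]) (x := p') (x' := p) ht (by linarith)
    (by rw [dist_comm, ← hdd]; nlinarith)
  have k4 := JJ_add_JJ (m := m) (μ := μ) hhc.continuous p ht
  have k5 := th_le hE hP hW hS hR hth hp ht hd
  rw [e1, mul_one] at k1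
  simp only [e2, sub_zero, mul_one] at k2
  have e3 : 4 * ((L * d)⁻¹ * dist p' p) * (C * 2 ^ m) = 4 * (C * 2 ^ m) / L := by
    rw [dist_comm, ← hdd]; field_simp
  have k6 : 4 * (C * 2 ^ m) / L ≤ om m / 16 := by
    rw [div_le_iff₀ (by linarith)]
    have := hP.LC
    linarith
  have e4 : (4 / (d / 4) * θ * (C + 1) + (R + 1) * ((K + 2) * C + 2)) * (L * d)
      = 16 * L * θ * (C + 1) + (R + 1) * ((K + 2) * C + 2) * (L * d) := by
    field_simp; ring
  have k7 : (R + 1) * ((K + 2) * C + 2) * (L * d) ≤ (R + 1) * ((K + 2) * C + 2) * r₀ := by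
    gcongr
  have k8 := hP.A1
  have k9 := hP.Lθ
  have hom := om_pos m
  rw [e4] at k1 k2
  rw [e3] at k3
  linarith

/-- the foot map is injective on the set of good points -/
lemma dist_le (hE : Module.finrank ℝ E = m + 1) (hP : Par m c K C R r₀ θ β L) (hW : TubeG W c K)
    (hS : Slice m μ T H) (hR : Ratio m μ C)
    (hth : ∀ x, W x = 0 → ‖x‖ ≤ R + 1 → th m μ x r₀ ≤ 3 / 2 * om m) {p p' : E}
    (hp : Good m μ T H W R r₀ (θ ^ 2) p) (hp' : Good m μ T H W R r₀ (θ ^ 2) p') :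
    dist p p' ≤ 4 * dist (ft W p) (ft W p') := by
  have hd0 : 0 ≤ dist p p' := dist_nonneg
  rcases le_or_gt (L * dist p p') r₀ with hd | hd
  · have h1 := W_sub_le hE hP hW hS hR hth hp hp' hd
    have h2 := W_sub_le hE hP hW hS hR hth hp' hp (by rwa [dist_comm])
    rw [dist_comm] at h2
    have h3 : |W p - W p'| ≤ dist p p' / 2 := abs_le.2 ⟨by linarith, h1⟩
    have e : p - p' = (ft W p - ft W p') + (W p - W p') • grad W p
        + W p' • (grad W p - grad W p') := by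
      unfold ft
      rw [sub_smul, smul_sub]
      abel
    have h4 : ‖(W p - W p') • grad W p‖ ≤ dist p p' / 2 := by
      rw [norm_smul, Real.norm_eq_abs]
      exact (mul_le_of_le_one_right (abs_nonneg _) (hW.b1 p)).trans h3
    have h5 : ‖W p' • (grad W p - grad W p')‖ ≤ dist p p' / 4 := by
      rw [norm_smul, Real.norm_eq_abs]
      have a1 := hW.grad_lip p' p
      rw [← dist_eq_norm p p'] at a1
      have a2 := (W_lt hE hP hW hS hR hp').le
      have a3 := hW.cK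
      have a4 := hW.cpos
      calc |W p'| * ‖grad W p - grad W p'‖ ≤ c * (K * dist p p') :=
            mul_le_mul a2 a1 (norm_nonneg _) a4.le
        _ = c * K * dist p p' := by ring
        _ ≤ 1 / 4 * dist p p' := mul_le_mul_of_nonneg_right a3 hd0
        _ = _ := by ring
    have h6 : dist p p' ≤ dist (ft W p) (ft W p') + dist p p' / 2 + dist p p' / 4 := by
      calc dist p p' = ‖p - p'‖ := dist_eq_norm _ _
        _ ≤ ‖ft W p - ft W p'‖ + ‖(W p - W p') • grad W p‖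
            + ‖W p' • (grad W p - grad W p')‖ := by
          rw [e]; exact norm_add₃_le
        _ ≤ _ := by rw [← dist_eq_norm]; linarith
    linarith
  · have h1 : dist p (ft W p) ≤ β * r₀ := by
      rw [dist_comm, dist_eq_norm]; exact (hW.norm_ft_sub p).trans (W_small hE hP hW hS hR hp)
    have h2 : dist (ft W p') p' ≤ β * r₀ := by
      rw [dist_eq_norm]; exact (hW.norm_ft_sub p').trans (W_small hE hP hW hS hR hp')
    have h3 := dist_triangle4 p (ft W p) (ft W p') p'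
    have h4 : β * r₀ ≤ β * (L * dist p p') := mul_le_mul_of_nonneg_left hd.le hP.β0.le
    have h5 : β * L * dist p p' ≤ 1 / 4 * dist p p' := mul_le_mul_of_nonneg_right hP.βL hd0
    have h6 : 0 ≤ dist (ft W p) (ft W p') := dist_nonneg
    nlinarith

/-- the choice of the parameters -/
lemma exists_par (m : ℕ) {c K C : ℝ} (hc : 0 < c) (hK : 1 ≤ K) (hC : 1 ≤ C) :
    ∃ ε > 0, ∃ θ β L : ℝ, 0 < θ ∧ ∀ R r₀ : ℝ, 0 ≤ R → 0 < r₀ → r₀ ≤ ε / (R + 1) →
      Par m c K C R r₀ θ β L := by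
  have hom := om_pos m
  obtain ⟨L, hL1, hLC⟩ : ∃ L : ℝ, 1 ≤ L ∧ 4 * (C * 2 ^ m) ≤ L * om m / 16 := by
    refine ⟨max 1 (64 * (C * 2 ^ m) / om m), le_max_left _ _, ?_⟩
    have h1 := le_max_right 1 (64 * (C * 2 ^ m) / om m)
    rw [div_le_iff₀ hom] at h1
    linarith
  obtain ⟨β, hβ0, hβL, hβC⟩ : ∃ β : ℝ, 0 < β ∧ β * L ≤ 1 / 4 ∧
      4 * β * (C * 2 ^ m) ≤ om m / 32 := by
    refine ⟨min (1 / 4 / L) (om m / 128 / (C * 2 ^ m)), by positivity, ?_, ?_⟩
    · rw [← le_div_iff₀ (by positivity)]; exact min_le_left _ _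
    · have h1 := min_le_right (1 / 4 / L) (om m / 128 / (C * 2 ^ m))
      rw [le_div_iff₀ (by positivity)] at h1
      linarith
  obtain ⟨θ, hθ0, hθ1, hθβ, hLθ⟩ : ∃ θ : ℝ, 0 < θ ∧ θ ≤ 1 ∧ θ ≤ β ^ 2 * om m / 8 ∧
      16 * L * θ * (C + 1) ≤ om m / 16 := by
    refine ⟨min 1 (min (β ^ 2 * om m / 8) (om m / 256 / (L * (C + 1)))), by positivity,
      min_le_left _ _, (min_le_right _ _).trans (min_le_left _ _), ?_⟩
    have h1 := (min_le_right 1 _).trans
      (min_le_right (β ^ 2 * om m / 8) (om m / 256 / (L * (C + 1))))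
    rw [le_div_iff₀ (by positivity)] at h1
    linarith
  set A : ℝ := (K + 2) * C + 2 with hA
  have hA0 : 0 < A := by positivity
  refine ⟨min c (min (om m / 32 / A) (β ^ 2 * om m / 8 / A)), by positivity, θ, β, L, hθ0,
    fun R r₀ hR hr0 hr => ?_⟩
  rw [le_div_iff₀ (by positivity)] at hr
  have h1 := hr.trans (min_le_left _ _)
  have h2 := hr.trans ((min_le_right _ _).trans (min_le_left _ _))
  have h3 := hr.trans ((min_le_right _ _).trans (min_le_right _ _))
  rw [le_div_iff₀ hA0] at h2 h3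
  exact ⟨hC, hR, hr0, by nlinarith, hθ0, hθ1, hβ0, hL1, by linarith, by linarith, hθβ, hβL, hβC,
    hLC, hLθ⟩

end GP

variable {m : ℕ}

/-- **good points** -/
theorem good_points (hm : 0 < m) (hE : Module.finrank ℝ E = m + 1) (c K CR : ℝ) :
    ∃ ε₂ > 0, ∃ γ > 0, ∀ R r₀ : ℝ, 0 ≤ R → 0 < r₀ → r₀ ≤ ε₂ / (R + 1) →
      ∀ (W : E → ℝ) (μ : Measure E) (T : E → Submodule ℝ E) (H : E → E),
        TubeG W c K → Slice m μ T H → Ratio m μ CR →
        (∀ x, W x = 0 → ‖x‖ ≤ R + 1 → th m μ x r₀ ≤ 3 / 2 * om m) →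
        (∀ p, Good m μ T H W R r₀ γ p →
          |W p| < c ∧ ∀ (q : ℕ) (T' : Submodule ℝ E), IsApproxTangent m μ p q T' → q ≤ 1) ∧
        ∀ p p', Good m μ T H W R r₀ γ p → Good m μ T H W R r₀ γ p' →
          dist p p' ≤ 4 * dist (ft W p) (ft W p') := by
  by_cases h : 0 < c ∧ 1 ≤ K
  swap
  · exact ⟨1, one_pos, 1, one_pos, fun R r₀ _ _ _ W μ T H hW => absurd ⟨hW.cpos, hW.K1⟩ h⟩
  obtain ⟨ε, hε, θ, β, L, hθ, hP⟩ := GP.exists_par m h.1 h.2 (le_max_right CR 1)
  refine ⟨ε, hε, θ ^ 2, by positivity, fun R r₀ hR hr0 hr W μ T H hW hS hCR hth => ?_⟩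
  have hP' := hP R r₀ hR hr0 hr
  have hC : Ratio m μ (max CR 1) := fun x r h0 h1 =>
    (hCR x r h0 h1).trans (mul_le_mul_of_nonneg_right (le_max_left _ _) (by positivity))
  exact ⟨fun p hp => ⟨GP.W_lt hE hP' hW hS hC hp, fun q T' hq =>
    GP.mult_le hE hP' hW hS hC hth hp hq⟩, fun p p' hp hp' => GP.dist_le hE hP' hW hS hC hth hp hp'⟩

end Vale.Agent.P218DY
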