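import Vale.Agent.P218GP.Good
import Vale.Agent.P218DY.Static
import Vale.Agent.P218LD.Push
import Vale.Agent.P218LD.JacFt
import Vale.Agent.P218.H313.FlowEst

/-! The static mass bound: the weighted measure of the bad set, of the tail and of the good set. -/

open MeasureTheory Set Filter Topology Metric
open scoped ENNReal NNReal RealInnerProductSpace

namespace Vale.Agent.P218DY

open Vale.Agent.P214 (proj IsApproxTangent)
open Vale.Agent.P218 Vale.Agent.P218.H313
open Vale.Agent.P218.H63 (gaussArea)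

set_option linter.unusedSectionVars false
set_option linter.unusedVariables false

variable {E : Type*} [NormedAddCommGroup E] [InnerProductSpace ℝ E] [FiniteDimensional ℝ E]
  [MeasurableSpace E] [BorelSpace E]

namespace GP

variable {m : ℕ} {W : E → ℝ} {c K C R r₀ γ Q : ℝ} {μ : Measure E} {T : E → Submodule ℝ E}
  {H : E → E}

/-- the measure with the Gaussian weight -/
noncomputable def nu (μ : Measure E) : Measure E :=
  μ.withDensity fun x => ENNReal.ofReal (rho x)

lemma meas_rho : Measurable fun x : E => ENNReal.ofReal (rho x) :=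
  continuous_rho.measurable.ennreal_ofReal

lemma nu_apply {A : Set E} (hA : MeasurableSet A) :
    nu μ A = ∫⁻ x in A, ENNReal.ofReal (rho x) ∂μ := withDensity_apply _ hA

lemma lintegral_nu {A : Set E} (hA : MeasurableSet A) (g : E → ℝ≥0∞) :
    ∫⁻ x in A, g x ∂(nu μ) = ∫⁻ x in A, ENNReal.ofReal (rho x) * g x ∂μ :=
  setLIntegral_withDensity_eq_setLIntegral_mul_non_measurable μ meas_rho g hA
    (Eventually.of_forall fun _ => ENNReal.ofReal_lt_top)

lemma nu_univ (hS : GSlice m μ T H) : nu μ univ = ENNReal.ofReal (FA μ) := by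
  have h1 : Integrable (fun x => rho x) μ := by simpa using hS.mom 0
  rw [nu_apply MeasurableSet.univ, Measure.restrict_univ, FA,
    ofReal_integral_eq_lintegral_ofReal h1 (Eventually.of_forall fun x => (rho_pos x).le)]

lemma rho_near {p y : E} {t : ℝ} (hR0 : 0 ≤ R) (hp : ‖p‖ ≤ R) (ht : t * (R + 1) ≤ 1)
    (hy : y ∈ closedBall p t) : rho y ≤ Real.exp 1 * rho p ∧ rho p ≤ Real.exp 1 * rho y := by
  rw [mem_closedBall, dist_eq_norm] at hy
  have h1 := abs_le.1 ((abs_norm_sub_norm_le y p).trans hy)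
  have h0 : 0 ≤ t := (norm_nonneg _).trans hy
  have ht1 : t ≤ 1 := by nlinarith
  have h2 := norm_nonneg y
  have h3 := norm_nonneg p
  have h4 : ‖y‖ + ‖p‖ ≤ 2 * (R + 1) := by linarith [h1.2]
  have h5 : (‖y‖ - ‖p‖) * (‖y‖ + ‖p‖) ≤ t * (2 * (R + 1)) :=
    mul_le_mul h1.2 h4 (by positivity) h0
  have h6 : (‖p‖ - ‖y‖) * (‖y‖ + ‖p‖) ≤ t * (2 * (R + 1)) :=
    mul_le_mul (by linarith [h1.1]) h4 (by positivity) h0
  unfold rho
  rw [← Real.exp_add, ← Real.exp_add, Real.exp_le_exp, Real.exp_le_exp]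
  constructor <;> nlinarith

lemma int_gi_rho (hW : TubeG W c K) (hS : GSlice m μ T H) (hr0 : 0 < r₀) (hr1 : r₀ ≤ 1)
    (hQ : DD μ W 0 + TG μ T W 0 + dis μ T H ≤ Q) :
    Integrable (fun x => gi T H W r₀ x * rho x) μ ∧
      ∫ x, gi T H W r₀ x * rho x ∂μ ≤ Q / r₀ ^ 2 := by
  have i1 := hW.int_TG hS 0
  have i2 := hS.int_vel_sq
  have i3 := hW.int_DD hS 0
  have e : (fun x => gi T H W r₀ x * rho x) = fun x =>
      1 * (wt 0 x * ‖proj (T x) (grad W x)‖ ^ 2 * rho x) + 1 * (‖vel T H x‖ ^ 2 * rho x)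
        + (r₀ ^ 2)⁻¹ * (W x ^ 2 * wt 0 x * rho x) := by
    ext x
    simp only [gi, tau, wt, pow_zero]
    ring
  rw [e]
  refine ⟨((i1.const_mul 1).add (i2.const_mul 1)).add (i3.const_mul _), ?_⟩
  rw [integral_comb i1 i2 i3]
  change 1 * TG μ T W 0 + 1 * dis μ T H + (r₀ ^ 2)⁻¹ * DD μ W 0 ≤ _
  have h1 : 0 ≤ TG μ T W 0 := integral_nonneg fun x => by
    have := rho_pos x; have := wt_pos 0 x; positivity
  have h2 : 0 ≤ dis μ T H := integral_nonneg fun x => by have := rho_pos x; positivity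
  have h3 : 1 ≤ (r₀ ^ 2)⁻¹ := by
    rw [one_le_inv₀ (by positivity)]; nlinarith
  have h4 := mul_le_mul_of_nonneg_left hQ (zero_le_one.trans h3)
  rw [div_eq_inv_mul]
  nlinarith

/-- the weighted measure of the bad set -/
lemma nu_bad (hW : TubeG W c K) (hS : GSlice m μ T H) (hR : Ratio m μ C) (hC : 0 < C)
    (hγ : 0 < γ) (hR0 : 0 ≤ R) (hr0 : 0 < r₀) (hr : r₀ * (R + 1) ≤ 1)
    (hQ : DD μ W 0 + TG μ T W 0 + dis μ T H ≤ Q) :
    nu μ {p | ‖p‖ ≤ R ∧ ∃ t, 0 < t ∧ t ≤ r₀ ∧
        γ * t ^ m < ∫ y in closedBall p t, gi T H W r₀ y ∂μ}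
      ≤ ENNReal.ofReal (Vale.Agent.P214.BES.nB E * (Real.exp 1 ^ 2 * C / γ) * (Q / r₀ ^ 2)) := by
  have hprop : ProperSpace E := FiniteDimensional.proper_real E
  have hfin := hS.mc.fin
  have hr1 : r₀ ≤ 1 := by nlinarith
  have he := Real.exp_pos 1
  have hq : 0 < γ / (Real.exp 1 ^ 2 * C) := by positivity
  obtain ⟨hi, hle⟩ := int_gi_rho hW hS hr0 hr1 hQ
  have h := Vale.Agent.P214.BES.weak_type_fun (nu μ) (fun y => ENNReal.ofReal (gi T H W r₀ y)) r₀
    (ENNReal.ofReal (γ / (Real.exp 1 ^ 2 * C))) (by simpa using hq) ENNReal.ofReal_ne_top univ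
    MeasurableSet.univ {p | ‖p‖ ≤ R ∧ ∃ t, 0 < t ∧ t ≤ r₀ ∧
        γ * t ^ m < ∫ y in closedBall p t, gi T H W r₀ y ∂μ} ?_
  · refine h.trans ?_
    have e1 : ∫⁻ y in univ, ENNReal.ofReal (gi T H W r₀ y) ∂(nu μ)
        ≤ ENNReal.ofReal (Q / r₀ ^ 2) := by
      rw [lintegral_nu MeasurableSet.univ, Measure.restrict_univ]
      refine le_trans (le_of_eq ?_) (ENNReal.ofReal_le_ofReal hle)
      rw [ofReal_integral_eq_lintegral_ofReal hi (Eventually.of_forall fun x =>
        mul_nonneg (gi_nonneg x) (rho_pos x).le)]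
      refine lintegral_congr fun x => ?_
      rw [← ENNReal.ofReal_mul (rho_pos x).le, mul_comm]
    calc (Vale.Agent.P214.BES.nB E : ℝ≥0∞) * ((∫⁻ y in univ,
          ENNReal.ofReal (gi T H W r₀ y) ∂(nu μ)) / ENNReal.ofReal (γ / (Real.exp 1 ^ 2 * C)))
        ≤ (Vale.Agent.P214.BES.nB E : ℝ≥0∞) * (ENNReal.ofReal (Q / r₀ ^ 2)
          / ENNReal.ofReal (γ / (Real.exp 1 ^ 2 * C))) := by gcongr
      _ = _ := by
          rw [← ENNReal.ofReal_div_of_pos hq, ← ENNReal.ofReal_natCast,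
            ← ENNReal.ofReal_mul (by positivity)]
          congr 1
          field_simp
  · rintro p ⟨hp, t, ht0, htr, hlt⟩
    refine ⟨t, ht0, htr, subset_univ _, ?_⟩
    have ht : t * (R + 1) ≤ 1 := (mul_le_mul_of_nonneg_right htr (by positivity)).trans hr
    have hρ := rho_pos p
    have h1 : nu μ (closedBall p t) ≤ ENNReal.ofReal (Real.exp 1 * rho p * (C * t ^ m)) := by
      rw [nu_apply measurableSet_closedBall]
      calc ∫⁻ x in closedBall p t, ENNReal.ofReal (rho x) ∂μ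
          ≤ ∫⁻ x in closedBall p t, ENNReal.ofReal (Real.exp 1 * rho p) ∂μ :=
            setLIntegral_mono' measurableSet_closedBall fun y hy =>
              ENNReal.ofReal_le_ofReal (rho_near hR0 hp ht hy).1
        _ = ENNReal.ofReal (Real.exp 1 * rho p) * μ (closedBall p t) := setLIntegral_const _ _
        _ ≤ ENNReal.ofReal (Real.exp 1 * rho p) * ENNReal.ofReal (C * t ^ m) := by
            gcongr
            rw [← ofReal_measureReal (isCompact_closedBall p t).measure_lt_top.ne]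
            exact ENNReal.ofReal_le_ofReal (hR p t ht0 (htr.trans hr1))
        _ = _ := by rw [← ENNReal.ofReal_mul (by positivity)]
    have h2 : ENNReal.ofReal (rho p / Real.exp 1 * (γ * t ^ m))
        ≤ ∫⁻ y in closedBall p t, ENNReal.ofReal (gi T H W r₀ y) ∂(nu μ) := by
      rw [lintegral_nu measurableSet_closedBall]
      calc ENNReal.ofReal (rho p / Real.exp 1 * (γ * t ^ m))
          = ENNReal.ofReal (rho p / Real.exp 1) * ENNReal.ofReal (γ * t ^ m) :=
            ENNReal.ofReal_mul (by positivity)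
        _ ≤ ENNReal.ofReal (rho p / Real.exp 1)
            * ∫⁻ y in closedBall p t, ENNReal.ofReal (gi T H W r₀ y) ∂μ := by
            gcongr
            rw [← ofReal_integral_eq_lintegral_ofReal
              (gi_integrableOn hW hS.toSlice r₀ (isCompact_closedBall p t))
              (Eventually.of_forall fun x => gi_nonneg x)]
            exact ENNReal.ofReal_le_ofReal hlt.le
        _ = ∫⁻ y in closedBall p t, ENNReal.ofReal (rho p / Real.exp 1)
            * ENNReal.ofReal (gi T H W r₀ y) ∂μ :=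
            (lintegral_const_mul' _ _ ENNReal.ofReal_ne_top).symm
        _ ≤ _ := setLIntegral_mono' measurableSet_closedBall fun y hy => by
            gcongr
            rw [div_le_iff₀ he, mul_comm]
            exact (rho_near hR0 hp ht hy).2
    refine le_trans ?_ h2
    refine (mul_le_mul_right h1 _).trans (le_of_eq ?_)
    rw [← ENNReal.ofReal_mul hq.le]
    congr 1
    field_simp

/-- the weighted measure of the tail -/
lemma nu_tail {G : ℝ} (hR0 : 0 ≤ R)
    (hG : ∫⁻ x, ENNReal.ofReal (Real.exp (-‖x‖ ^ 2 / 16)) ∂μ ≤ ENNReal.ofReal G) :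
    nu μ (closedBall (0 : E) R)ᶜ ≤ ENNReal.ofReal (Real.exp (-(3 / 16 * R ^ 2)) * G) := by
  rw [nu_apply measurableSet_closedBall.compl]
  calc ∫⁻ x in (closedBall (0 : E) R)ᶜ, ENNReal.ofReal (rho x) ∂μ
      ≤ ∫⁻ x in (closedBall (0 : E) R)ᶜ, ENNReal.ofReal (Real.exp (-(3 / 16 * R ^ 2)))
          * ENNReal.ofReal (Real.exp (-‖x‖ ^ 2 / 16)) ∂μ := by
        refine setLIntegral_mono' measurableSet_closedBall.compl fun y hy => ?_
        rw [← ENNReal.ofReal_mul (Real.exp_pos _).le, ← Real.exp_add]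
        refine ENNReal.ofReal_le_ofReal (Real.exp_le_exp.2 ?_)
        rw [mem_compl_iff, mem_closedBall, dist_zero_right, not_le] at hy
        have : R ^ 2 ≤ ‖y‖ ^ 2 := by gcongr
        linarith
    _ = ENNReal.ofReal (Real.exp (-(3 / 16 * R ^ 2)))
          * ∫⁻ x in (closedBall (0 : E) R)ᶜ, ENNReal.ofReal (Real.exp (-‖x‖ ^ 2 / 16)) ∂μ :=
        lintegral_const_mul' _ _ ENNReal.ofReal_ne_top
    _ ≤ ENNReal.ofReal (Real.exp (-(3 / 16 * R ^ 2))) * ENNReal.ofReal G := by
        gcongr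
        exact (setLIntegral_le_lintegral _ _).trans hG
    _ = _ := (ENNReal.ofReal_mul (Real.exp_pos _).le).symm

/-- moments -/
lemma mom_le {G : ℝ} (hS : GSlice m μ T H) (q : ℕ)
    (hG : ∫⁻ x, ENNReal.ofReal (Real.exp (-‖x‖ ^ 2 / 16)) ∂μ ≤ ENNReal.ofReal G) :
    ∫ x, (1 + ‖x‖) ^ (2 * q) * rho x ∂μ ≤ Real.exp (6 * q ^ 2) * |G| := by
  rw [← ENNReal.ofReal_le_ofReal_iff (by positivity), ofReal_integral_eq_lintegral_ofReal
    (hS.mom _) (Eventually.of_forall fun x => by have := rho_pos x; positivity),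
    ENNReal.ofReal_mul (Real.exp_pos _).le]
  calc ∫⁻ x, ENNReal.ofReal ((1 + ‖x‖) ^ (2 * q) * rho x) ∂μ
      ≤ ∫⁻ x, ENNReal.ofReal (Real.exp (6 * q ^ 2))
          * ENNReal.ofReal (Real.exp (-‖x‖ ^ 2 / 16)) ∂μ := by
        refine lintegral_mono fun x => ?_
        rw [← ENNReal.ofReal_mul (Real.exp_pos _).le, ← Real.exp_add]
        refine ENNReal.ofReal_le_ofReal ?_
        have h1 : (1 + ‖x‖) ^ (2 * q) ≤ Real.exp ‖x‖ ^ (2 * q) := by
          gcongr
          linarith [Real.add_one_le_exp ‖x‖]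
        rw [← Real.exp_nat_mul] at h1
        refine (mul_le_mul_of_nonneg_right h1 (rho_pos x).le).trans ?_
        unfold rho
        rw [← Real.exp_add, Real.exp_le_exp]
        push_cast
        nlinarith [sq_nonneg (3 * ‖x‖ - 16 * q), sq_nonneg (q : ℝ)]
    _ = ENNReal.ofReal (Real.exp (6 * q ^ 2))
          * ∫⁻ x, ENNReal.ofReal (Real.exp (-‖x‖ ^ 2 / 16)) ∂μ :=
        lintegral_const_mul' _ _ ENNReal.ofReal_ne_top
    _ ≤ _ := by
        gcongr
        exact hG.trans (ENNReal.ofReal_le_ofReal (le_abs_self G))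

/-- the unweighted energy in a ball -/
lemma en_le (hW : TubeG W c K) (hS : GSlice m μ T H) (hR0 : 0 ≤ R)
    (hQ : DD μ W 0 + TG μ T W 0 + dis μ T H ≤ Q) :
    en μ T H W R ≤ Real.exp (R ^ 2 / 4) * Q := by
  have hprop : ProperSpace E := FiniteDimensional.proper_real E
  obtain ⟨hi, hle⟩ := int_gi_rho (r₀ := 1) hW hS one_pos le_rfl hQ
  have e : en μ T H W R = ∫ x in closedBall (0 : E) R, gi T H W 1 x ∂μ := by
    unfold en gi
    refine integral_congr_ae (Eventually.of_forall fun x => ?_)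
    simp only
    ring
  rw [e]
  calc ∫ x in closedBall (0 : E) R, gi T H W 1 x ∂μ
      ≤ ∫ x in closedBall (0 : E) R, Real.exp (R ^ 2 / 4) * (gi T H W 1 x * rho x) ∂μ := by
        refine setIntegral_mono_on (gi_integrableOn hW hS.toSlice 1 (isCompact_closedBall _ _))
          (hi.const_mul _).integrableOn measurableSet_closedBall fun y hy => ?_
        rw [mem_closedBall, dist_zero_right] at hy
        have h1 : 1 ≤ Real.exp (R ^ 2 / 4) * rho y := by
          unfold rho
          rw [← Real.exp_add, Real.one_le_exp_iff]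
          have : ‖y‖ ^ 2 ≤ R ^ 2 := by gcongr
          linarith
        have h2 := gi_nonneg (T := T) (H := H) (W := W) (r₀ := 1) y
        nlinarith
    _ ≤ ∫ x, Real.exp (R ^ 2 / 4) * (gi T H W 1 x * rho x) ∂μ :=
        setIntegral_le_integral (hi.const_mul _) (Eventually.of_forall fun x =>
          mul_nonneg (Real.exp_pos _).le (mul_nonneg (gi_nonneg x) (rho_pos x).le))
    _ ≤ _ := by
        rw [integral_const_mul]
        gcongr
        simpa using hle

end GP

end Vale.Agent.P218DY
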