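import Vale.Agent.P218GP.Mass1

/-! The static mass bound: the good set. -/

open MeasureTheory Set Filter Topology Metric
open scoped ENNReal NNReal RealInnerProductSpace

namespace Vale.Agent.P218DY

open Vale.Agent.P214 (proj IsApproxTangent)
open Vale.Agent.P218 Vale.Agent.P218.H313
open Vale.Agent.P218.H63 (gaussArea)

set_option linter.unusedSectionVars false
set_option linter.unusedVariables false

variable {E : Type*} [NormedAddCommGroup E] [InnerProductSpace ℝ E] [FiniteDimensional ℝ E]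
  [MeasurableSpace E] [BorelSpace E]

namespace GP

variable {m : ℕ} {W : E → ℝ} {c K C R r₀ γ Q : ℝ} {μ : Measure E} {T : E → Submodule ℝ E}
  {H : E → E}

lemma rho_ft (hW : TubeG W c K) {x : E} (hx : |W x| < c) :
    rho (ft W x) = Real.exp (W x * ⟪x, grad W x⟫ / 2 - W x ^ 2 / 4) * rho x := by
  unfold rho ft
  rw [← Real.exp_add, norm_sub_sq_real, norm_smul, hW.eik x hx, real_inner_smul_right, mul_one,
    Real.norm_eq_abs, sq_abs]
  congr 1
  ring

lemma pt_real1 {n K w a s b f d : ℝ} (hn : 0 ≤ n) (hK : 0 ≤ K) (hw : |w| ≤ 1)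
    (h1 : |a - 1 / 2 * s + (b + 1 / 2) * w - f| ≤ n * K ^ 3 * w ^ 2) (h2 : |b| ≤ n * K ^ 2)
    (hd : |f| ≤ d) :
    w * (a - 1 / 2 * s) ≤ (n * K ^ 2 + 1 / 2) * w ^ 2 + n * K ^ 3 * w ^ 2 + (w ^ 2 + d ^ 2) := by
  have e : w * (a - 1 / 2 * s) = w * (a - 1 / 2 * s + (b + 1 / 2) * w - f)
      - (b + 1 / 2) * w ^ 2 + w * f := by ring
  have b1 : w * (a - 1 / 2 * s + (b + 1 / 2) * w - f) ≤ n * K ^ 3 * w ^ 2 := by
    calc w * (a - 1 / 2 * s + (b + 1 / 2) * w - f)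
        ≤ |w| * |a - 1 / 2 * s + (b + 1 / 2) * w - f| := by rw [← abs_mul]; exact le_abs_self _
      _ ≤ 1 * (n * K ^ 3 * w ^ 2) := mul_le_mul hw h1 (abs_nonneg _) zero_le_one
      _ = _ := one_mul _
  have b2 : -(b + 1 / 2) * w ^ 2 ≤ (n * K ^ 2 + 1 / 2) * w ^ 2 :=
    mul_le_mul_of_nonneg_right (by linarith [(abs_le.1 h2).1]) (sq_nonneg w)
  have b3 : w * f ≤ w ^ 2 + d ^ 2 := by
    have c1 : f ^ 2 ≤ d ^ 2 := by rw [← sq_abs f]; gcongr
    nlinarith [sq_nonneg (w - f), sq_nonneg w, sq_nonneg f]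
  linarith

lemma pt_real2 {n K C₁ w a s b f d τ : ℝ} (hn : 0 ≤ n) (hK : 1 ≤ K) (hC₁ : 0 ≤ C₁)
    (hwK : |w| * K ≤ 1 / 4) (hw4 : |w| ≤ 1 / 4)
    (h1 : |a - 1 / 2 * s + (b + 1 / 2) * w - f| ≤ n * K ^ 3 * w ^ 2) (h2 : |b| ≤ n * K ^ 2)
    (h3 : |a| ≤ n * K) (h4 : |s| ≤ K) (hd : |f| ≤ d) :
    1 ≤ max 0 (1 - w * a - C₁ * (w ^ 2 + τ ^ 2)) * Real.exp (w * s / 2 - w ^ 2 / 4)
      + ((2 * C₁ + 2 + 2 * n * K ^ 2 + n * K ^ 3) * (w ^ 2 + τ ^ 2) + d ^ 2) := by
  have hK0 : 0 ≤ K := by linarith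
  have k4 := pt_real1 hn hK0 (by linarith) h1 h2 hd
  have hw0 := abs_nonneg w
  have hw2 : |w| ^ 2 = w ^ 2 := sq_abs w
  have hws : |w * s| ≤ |w| * K := by rw [abs_mul]; gcongr
  have hu1 : |w * s / 2 - w ^ 2 / 4| ≤ |w| * K := by
    refine (abs_sub _ _).trans ?_
    rw [abs_div, abs_div, abs_two, abs_of_nonneg (sq_nonneg w),
      abs_of_pos (by norm_num : (0 : ℝ) < 4)]
    have c1 : |w| * |w| ≤ |w| * K := mul_le_mul_of_nonneg_left (by linarith) hw0
    have c2 : 0 ≤ |w| * K := by positivity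
    nlinarith
  have e : ∀ P, (1 - w * a - C₁ * P) * (1 + (w * s / 2 - w ^ 2 / 4))
      = 1 - w * (a - 1 / 2 * s) - w ^ 2 / 4 - C₁ * P - (w * s / 2 - w ^ 2 / 4) * (w * a)
        - C₁ * P * (w * s / 2 - w ^ 2 / 4) := fun P => by ring
  have hwP : w ^ 2 ≤ w ^ 2 + τ ^ 2 := by linarith [sq_nonneg τ]
  have hP0 : 0 ≤ w ^ 2 + τ ^ 2 := by positivity
  generalize w ^ 2 + τ ^ 2 = P at *
  generalize w * s / 2 - w ^ 2 / 4 = u at *
  have hu2 := abs_le.1 (hu1.trans hwK)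
  have he : 1 + u ≤ Real.exp u := by linarith [Real.add_one_le_exp u]
  have k1 : (1 - w * a - C₁ * P) * (1 + u) ≤ max 0 (1 - w * a - C₁ * P) * Real.exp u :=
    (mul_le_mul_of_nonneg_right (le_max_right _ _) (by linarith [hu2.1])).trans
      (mul_le_mul_of_nonneg_left he (le_max_left _ _))
  have k2 : u * (w * a) ≤ n * K ^ 2 * w ^ 2 := by
    calc u * (w * a) ≤ |u * (w * a)| := le_abs_self _
      _ = |u| * (|w| * |a|) := by rw [abs_mul, abs_mul]
      _ ≤ (|w| * K) * (|w| * (n * K)) := by gcongr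
      _ = n * K ^ 2 * |w| ^ 2 := by ring
      _ = _ := by rw [hw2]
  have k3 : C₁ * P * u ≤ C₁ * P * 1 :=
    mul_le_mul_of_nonneg_left (by linarith [hu2.2]) (by positivity)
  have b1 : (2 + 2 * n * K ^ 2 + n * K ^ 3) * w ^ 2 ≤ (2 + 2 * n * K ^ 2 + n * K ^ 3) * P :=
    mul_le_mul_of_nonneg_left hwP (by positivity)
  have b2 := sq_nonneg w
  rw [e] at k1
  linarith

/-- the pointwise comparison of the Gaussian weights -/
lemma exists_pt (n : ℕ) (K C₁ : ℝ) (hC₁ : 0 ≤ C₁) : ∃ C₂ : ℝ, 0 ≤ C₂ ∧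
    ∀ (W : E → ℝ) (c : ℝ), TubeG W c K → Module.finrank ℝ E = n → ∀ x, |W x| < c →
      ∀ τ d : ℝ, |df W x| ≤ d →
      rho x ≤ max 0 (1 - W x * tr (fderiv ℝ (grad W) x) - C₁ * (W x ^ 2 + τ ^ 2)) * rho (ft W x)
        + (C₂ * (W x ^ 2 + τ ^ 2) + d ^ 2) * rho x := by
  refine ⟨2 * C₁ + 2 + 2 * n * K ^ 2 + n * |K| ^ 3, by positivity,
    fun W c hW hn x hx τ d hd => ?_⟩
  have hK0 := hW.K0
  rw [abs_of_nonneg hK0, rho_ft hW hx]
  have h1 := hW.ric hx
  have h2 := hW.q_le x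
  have h3 : |tr (fderiv ℝ (grad W) x)| ≤ n * K := by
    refine (abs_tr_le _).trans ?_
    rw [hn]
    exact mul_le_mul_of_nonneg_left (hW.b2 x) (by positivity)
  rw [hn] at h1 h2
  have k5 := pt_real2 (τ := τ) (Nat.cast_nonneg n) hW.K1 hC₁
    ((mul_le_mul_of_nonneg_right hx.le hK0).trans hW.cK) (hx.le.trans hW.c_le) h1 h2 h3
    (hW.bx x) hd
  have k6 := mul_le_mul_of_nonneg_right k5 (rho_pos x).le
  linarith

/-- the weighted measure of a set of good points -/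
lemma exists_nu_good (hE : Module.finrank ℝ E = m + 1) (K : ℝ) : ∃ C₂ : ℝ, 0 ≤ C₂ ∧
    ∀ (W : E → ℝ) (c : ℝ) (μ : Measure E) (T : E → Submodule ℝ E) (H : E → E) (σ M Q : ℝ) (q : ℕ),
      TubeG W c K → GSlice m μ T H → IsLocallyFiniteMeasure (HS m W) →
      (∀ y, W y = 0 → ∀ ε : ℝ, 0 < ε → ∀ᶠ r in 𝓝[>] (0 : ℝ), ENNReal.ofReal ((1 - ε) * r ^ m)
        * (μH[m] : Measure (EuclideanSpace ℝ (Fin m))) (closedBall 0 1)
          ≤ HS m W (closedBall y r)) →
      (∀ y, W y = 0 → |dfc W y| ≤ σ * (1 + ‖y‖) ^ q) →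
      ∫ x, (1 + ‖x‖) ^ (2 * q) * rho x ∂μ ≤ M →
      DD μ W 0 + TG μ T W 0 + dis μ T H + σ ^ 2 ≤ Q →
      ∀ G : Set E, MeasurableSet G → (∀ p ∈ G, |W p| < c) →
      (∀ p ∈ G, ∀ p' ∈ G, dist p p' ≤ 4 * dist (ft W p) (ft W p')) →
      (∀ᵐ x ∂μ, x ∈ G → IsApproxTangent m μ x 1 (T x)) →
      nu μ G ≤ gaussArea m {x | W x = 0} univ + ENNReal.ofReal ((C₂ + 4 ^ q * M) * Q) := by
  obtain ⟨C₁, hC₁, hjac⟩ := jac_ft_ge (E := E) hE K
  obtain ⟨C₂, hC₂, hpt⟩ := exists_pt (E := E) (m + 1) K C₁ hC₁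
  refine ⟨C₂, hC₂, fun W c μ T H σ M Q q hW hS hlf hlow hσ hM hQ G hG hGc hinj htan => ?_⟩
  have hfin := hS.mc.fin
  have hK0 := hW.K0
  set J : E → ℝ := fun x =>
    max 0 (1 - W x * tr (fderiv ℝ (grad W) x) - C₁ * (W x ^ 2 + tau T W x ^ 2)) with hJ
  have htr : Continuous fun x => tr (fderiv ℝ (grad W) x) := (trL E).continuous.comp hW.hess_cont
  have hJm : AEStronglyMeasurable J μ := by
    have h1 : AEStronglyMeasurable (fun x => 1 - W x * tr (fderiv ℝ (grad W) x)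
        - C₁ * (W x ^ 2 + tau T W x ^ 2)) μ :=
      (continuous_const.sub (hW.cont.mul htr)).aestronglyMeasurable.sub
        (((hW.cont.pow 2).aestronglyMeasurable.add ((hW.tau_meas hS.toSlice).pow 2)).const_mul _)
    exact (continuous_const.max continuous_id).comp_aestronglyMeasurable h1
  have hJB : ∀ x, 0 ≤ J x ∧ J x ≤ 1 + K * (Module.finrank ℝ E * K) := by
    intro x
    refine ⟨le_max_left _ _, max_le (by positivity) ?_⟩
    have h1 : |W x * tr (fderiv ℝ (grad W) x)| ≤ K * (Module.finrank ℝ E * K) := by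
      rw [abs_mul]
      refine mul_le_mul (hW.b0 x) ((abs_tr_le _).trans ?_) (abs_nonneg _) hK0
      exact mul_le_mul_of_nonneg_left (hW.b2 x) (by positivity)
    have h2 := (abs_le.1 h1).1
    have h3 : 0 ≤ C₁ * (W x ^ 2 + tau T W x ^ 2) := by positivity
    linarith
  have hlf' : IsLocallyFiniteMeasure ((μH[m] : Measure E).restrict {x | W x = 0}) := hlf
  have hpush := push_le (m := m) (μ := μ) hW.contDiff_ft hW.isClosed.measurableSet hlow hG
    (fun p hp => hW.ft_zero (hGc p hp)) hinj htan hJm hJB (by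
      filter_upwards [hS.mc.dim] with x hT hx
      exact max_le (LinearMap.normDet_nonneg _) (hjac W c hW x (hGc x hx) _ hT)) meas_rho
  have hga : gaussArea m {x | W x = 0} univ
      = ∫⁻ y in {x | W x = 0}, ENNReal.ofReal (rho y) ∂(μH[m] : Measure E) := by
    unfold gaussArea
    rw [withDensity_apply _ MeasurableSet.univ, Measure.restrict_univ]
    rfl
  set e : E → ℝ := fun x => C₂ * (W x ^ 2 * wt 0 x * rho x)
    + C₂ * (wt 0 x * ‖proj (T x) (grad W x)‖ ^ 2 * rho x)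
    + (σ ^ 2 * 4 ^ q) * ((1 + ‖x‖) ^ (2 * q) * rho x) with he
  have i1 := hW.int_DD hS 0
  have i2 := hW.int_TG hS 0
  have i3 := hS.mom (2 * q)
  have hei : Integrable e μ := ((i1.const_mul _).add (i2.const_mul _)).add (i3.const_mul _)
  have he0 : ∀ x, 0 ≤ e x := fun x => by
    have := rho_pos x; have := wt_pos 0 x; simp only [he]; positivity
  have hD : 0 ≤ DD μ W 0 := integral_nonneg fun x => by have := rho_pos x; positivity
  have hT : 0 ≤ TG μ T W 0 := integral_nonneg fun x => by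
    have := rho_pos x; have := wt_pos 0 x; positivity
  have hd : 0 ≤ dis μ T H := integral_nonneg fun x => by have := rho_pos x; positivity
  have hM0 : 0 ≤ M := le_trans (integral_nonneg fun x => by have := rho_pos x; positivity) hM
  have hint : ∫ x, e x ∂μ ≤ (C₂ + 4 ^ q * M) * Q := by
    rw [he, integral_comb i1 i2 i3]
    change C₂ * DD μ W 0 + C₂ * TG μ T W 0 + _ ≤ _
    have h1 : DD μ W 0 + TG μ T W 0 ≤ Q := by nlinarith [sq_nonneg σ]
    have h2 : σ ^ 2 ≤ Q := by linarith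
    have h3 := mul_le_mul_of_nonneg_left h1 hC₂
    have h4 : σ ^ 2 * 4 ^ q * ∫ x, (1 + ‖x‖) ^ (2 * q) * rho x ∂μ ≤ Q * 4 ^ q * M :=
      mul_le_mul (by gcongr) hM (integral_nonneg fun x => by have := rho_pos x; positivity)
        (by have := (sq_nonneg σ).trans h2; positivity)
    linarith
  rw [nu_apply hG, hga]
  calc ∫⁻ x in G, ENNReal.ofReal (rho x) ∂μ
      ≤ ∫⁻ x in G, (ENNReal.ofReal (J x) * ENNReal.ofReal (rho (ft W x))
          + ENNReal.ofReal (e x)) ∂μ := by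
        refine setLIntegral_mono' hG fun x hx => ?_
        rw [← ENNReal.ofReal_mul (hJB x).1, ← ENNReal.ofReal_add
          (mul_nonneg (hJB x).1 (rho_pos _).le) (he0 x)]
        refine ENNReal.ofReal_le_ofReal ?_
        refine (hpt W c hW hE x (hGc x hx) (tau T W x) _ (hW.abs_df_le hσ (hGc x hx))).trans
          (le_of_eq ?_)
        have e1 : (|σ| * 2 ^ q * (1 + ‖x‖) ^ q) ^ 2 = σ ^ 2 * 4 ^ q * (1 + ‖x‖) ^ (2 * q) := by
          rw [mul_pow, mul_pow, sq_abs, ← pow_mul, ← pow_mul, mul_comm q 2, pow_mul]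
          norm_num
        rw [e1]
        simp only [he, hJ, wt, tau, pow_zero]
        ring
    _ = ∫⁻ x in G, ENNReal.ofReal (J x) * ENNReal.ofReal (rho (ft W x)) ∂μ
          + ∫⁻ x in G, ENNReal.ofReal (e x) ∂μ :=
        lintegral_add_right' _ hei.aestronglyMeasurable.aemeasurable.ennreal_ofReal.restrict
    _ ≤ _ := by
        refine add_le_add hpush ((setLIntegral_le_lintegral _ _).trans ?_)
        rw [← ofReal_integral_eq_lintegral_ofReal hei (Eventually.of_forall he0)]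
        exact ENNReal.ofReal_le_ofReal hint

/-- the decomposition into the good set, the bad set and the tail -/
lemma nu_univ_le (hS : GSlice m μ T H) (hI : Intg m μ T) {A : ℝ≥0∞}
    (hq : ∀ p, Good m μ T H W R r₀ γ p → ∀ (q : ℕ) (T' : Submodule ℝ E),
      IsApproxTangent m μ p q T' → q ≤ 1)
    (hA : ∀ G : Set E, MeasurableSet G → (∀ p ∈ G, Good m μ T H W R r₀ γ p) →
      (∀ᵐ x ∂μ, x ∈ G → IsApproxTangent m μ x 1 (T x)) → nu μ G ≤ A) :
    nu μ univ ≤ A + nu μ {p | ‖p‖ ≤ R ∧ ∃ t, 0 < t ∧ t ≤ r₀ ∧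
        γ * t ^ m < ∫ y in closedBall p t, gi T H W r₀ y ∂μ} + nu μ (closedBall (0 : E) R)ᶜ := by
  set B : Set E := {p | ‖p‖ ≤ R ∧ ∃ t, 0 < t ∧ t ≤ r₀ ∧
        γ * t ^ m < ∫ y in closedBall p t, gi T H W r₀ y ∂μ} with hB
  set N : Set E := {x | ¬ ∀ b < om m, ∀ᶠ r in 𝓝[>] (0 : ℝ), b ≤ th m μ x r} with hN
  have hN0 : μ N = 0 := hS.dens
  have hN1 : nu μ (toMeasurable μ N) = 0 :=
    withDensity_absolutelyContinuous μ _ (by rw [measure_toMeasurable]; exact hN0)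
  set G : Set E := (closedBall (0 : E) R \ toMeasurable (nu μ) B) \ toMeasurable μ N with hG
  have hGm : MeasurableSet G :=
    (measurableSet_closedBall.diff (measurableSet_toMeasurable _ _)).diff
      (measurableSet_toMeasurable _ _)
  have hgood : ∀ p ∈ G, Good m μ T H W R r₀ γ p := by
    rintro p ⟨⟨h1, h2⟩, h3⟩
    rw [mem_closedBall, dist_zero_right] at h1
    refine ⟨h1, ?_, fun t ht htr => ?_⟩
    · by_contra hcon
      exact h3 (subset_toMeasurable _ _ hcon)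
    · by_contra hcon
      exact h2 (subset_toMeasurable _ _ ⟨h1, t, ht, htr, not_le.1 hcon⟩)
  have h1 := hA G hGm hgood (by
    filter_upwards [hI] with x hx hxG
    obtain ⟨q, hq1, hq2⟩ := hx
    have := hq x (hgood x hxG) q _ hq2
    have e : q = 1 := le_antisymm this hq1
    rwa [e] at hq2)
  have hsub : (univ : Set E) ⊆ ((G ∪ toMeasurable (nu μ) B) ∪ (closedBall (0 : E) R)ᶜ)
      ∪ toMeasurable μ N := by
    intro x _
    by_cases a1 : x ∈ toMeasurable μ N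
    · exact Or.inr a1
    by_cases a2 : x ∈ closedBall (0 : E) R
    swap
    · exact Or.inl (Or.inr a2)
    by_cases a3 : x ∈ toMeasurable (nu μ) B
    · exact Or.inl (Or.inl (Or.inr a3))
    exact Or.inl (Or.inl (Or.inl ⟨⟨a2, a3⟩, a1⟩))
  calc nu μ univ ≤ nu μ (((G ∪ toMeasurable (nu μ) B) ∪ (closedBall (0 : E) R)ᶜ)
        ∪ toMeasurable μ N) := measure_mono hsub
    _ ≤ nu μ ((G ∪ toMeasurable (nu μ) B) ∪ (closedBall (0 : E) R)ᶜ)
        + nu μ (toMeasurable μ N) := measure_union_le _ _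
    _ ≤ nu μ (G ∪ toMeasurable (nu μ) B) + nu μ (closedBall (0 : E) R)ᶜ := by
        rw [hN1, add_zero]; exact measure_union_le _ _
    _ ≤ _ := by
        gcongr
        refine (measure_union_le _ _).trans ?_
        rw [measure_toMeasurable]
        gcongr

end GP

end Vale.Agent.P218DY
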