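import Vale.Agent.P218GP.Mass2
import Vale.Agent.P218DH.Lower
import Vale.Agent.P218DH.Upper

/-! The static mass bound, from the propagation of the density bound. -/

open MeasureTheory Set Filter Topology Metric
open scoped ENNReal NNReal RealInnerProductSpace

namespace Vale.Agent.P218DY

open Vale.Agent.P214 (proj IsApproxTangent)
open Vale.Agent.P218 Vale.Agent.P218.H313
open Vale.Agent.P218.H63 (gaussArea)

set_option linter.unusedSectionVars false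
set_option linter.unusedVariables false

variable {E : Type*} [NormedAddCommGroup E] [InnerProductSpace ℝ E] [FiniteDimensional ℝ E]
  [MeasurableSpace E] [BorelSpace E]
variable {m : ℕ}

namespace GP

/-- the choice of the radius -/
lemma exists_R1 (R₀ : ℝ) {c₀ : ℝ} (hc₀ : 0 < c₀) (n : ℕ) : ∃ R₁, 0 ≤ R₁ ∧ R₀ ≤ R₁ ∧
    ∀ R, R₁ ≤ R → Real.exp ((R + 3) ^ 2 / 4) * Real.exp (-(5 / 16 * R ^ 2))
      ≤ c₀ / (R + 1) ^ n := by
  refine ⟨max (max 0 R₀) (max 1 (16 * (3 / 2 + n + 9 / 4 + |Real.log c₀|))),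
    (le_max_left _ _).trans (le_max_left _ _), (le_max_right _ _).trans (le_max_left _ _),
    fun R hR => ?_⟩
  have h1 : 1 ≤ R := ((le_max_left _ _).trans (le_max_right _ _)).trans hR
  have h2 : 16 * (3 / 2 + n + 9 / 4 + |Real.log c₀|) ≤ R :=
    ((le_max_right _ _).trans (le_max_right _ _)).trans hR
  have h3 : (R + 1) ^ n ≤ Real.exp R ^ n := by
    gcongr
    exact Real.add_one_le_exp R
  rw [← Real.exp_nat_mul] at h3
  rw [le_div_iff₀ (by positivity), ← Real.exp_add]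
  refine (mul_le_mul_of_nonneg_left h3 (Real.exp_pos _).le).trans ?_
  rw [← Real.exp_add, ← Real.le_log_iff_exp_le hc₀]
  have h4 := neg_abs_le (Real.log c₀)
  have h5 := abs_nonneg (Real.log c₀)
  have h6 := mul_le_mul_of_nonneg_right h2 (by linarith : 0 ≤ R)
  have h7 : |Real.log c₀| ≤ |Real.log c₀| * R := le_mul_of_one_le_right h5 h1
  nlinarith

lemma exists_radius {R₁ Q : ℝ} (hR₁ : 0 ≤ R₁) (hQ : 0 < Q)
    (hQ0 : Q ≤ Real.exp (-(5 / 16 * R₁ ^ 2))) :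
    ∃ R, R₁ ≤ R ∧ Q = Real.exp (-(5 / 16 * R ^ 2)) := by
  have h1 : Real.log Q ≤ -(5 / 16 * R₁ ^ 2) := (Real.log_le_iff_le_exp hQ).2 hQ0
  have h2 : R₁ ^ 2 ≤ -(16 / 5 * Real.log Q) := by linarith
  refine ⟨√(-(16 / 5 * Real.log Q)), Real.le_sqrt_of_sq_le h2, ?_⟩
  rw [Real.sq_sqrt ((sq_nonneg _).trans h2)]
  have e : -(5 / 16 * -(16 / 5 * Real.log Q)) = Real.log Q := by ring
  rw [e, Real.exp_log hQ]

lemma le_of_forall_rpow {a b : ℝ≥0∞} {C Q₀ : ℝ} (hQ₀ : 0 < Q₀)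
    (h : ∀ Q, 0 < Q → Q ≤ Q₀ → a ≤ b + ENNReal.ofReal (C * Q ^ (3 / 5 : ℝ))) : a ≤ b := by
  have h1 : Tendsto (fun Q : ℝ => Q ^ (3 / 5 : ℝ)) (𝓝 0) (𝓝 ((0 : ℝ) ^ (3 / 5 : ℝ))) :=
    (Real.continuousAt_rpow_const 0 _ (Or.inr (by norm_num))).tendsto
  rw [Real.zero_rpow (by norm_num)] at h1
  have h2 : Tendsto (fun Q : ℝ => b + ENNReal.ofReal (C * Q ^ (3 / 5 : ℝ))) (𝓝[>] 0)
      (𝓝 (b + ENNReal.ofReal (C * 0))) :=
    ((ENNReal.tendsto_ofReal (h1.const_mul C)).const_add b).mono_left nhdsWithin_le_nhds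
  rw [mul_zero, ENNReal.ofReal_zero, add_zero] at h2
  refine ge_of_tendsto h2 ?_
  filter_upwards [Ioc_mem_nhdsGT hQ₀] with Q hQ using h Q hQ.1 hQ.2

end GP

open GP in
/-- the static mass bound, given the propagation of the density bound -/
theorem mass_bound_of (hm : 0 < m) (hE : Module.finrank ℝ E = m + 1) (c K CR : ℝ) (q : ℕ)
    (hprop : ∃ R₀ > 0, ∃ r₂ > 0, ∀ r₁, 0 < r₁ → r₁ ≤ r₂ → ∀ ε₁, 0 < ε₁ → ε₁ ≤ r₁ →
      ∃ (c₀ : ℝ) (n : ℕ), 0 < c₀ ∧ ∀ R, R₀ ≤ R → ∀ (W : E → ℝ) (μ : Measure E)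
        (T : E → Submodule ℝ E) (H : E → E), TubeG W c K → Slice m μ T H → Ratio m μ CR →
        (∀ x, W x = 0 → ‖x‖ ≤ R₀ → th m μ x r₁ ≤ 5 / 4 * om m) →
        en μ T H W (R + 3) ≤ c₀ / (R + 1) ^ n →
        ∀ x, W x = 0 → ‖x‖ ≤ R + 1 → th m μ x (ε₁ / (R + 1)) ≤ 3 / 2 * om m) :
    ∃ R₀ > 0, ∃ r₂ > 0, ∀ r₁, 0 < r₁ → r₁ ≤ r₂ → ∃ Q₀ > 0, ∃ C : ℝ, 0 ≤ C ∧
      ∀ (W : E → ℝ) (μ : Measure E) (T : E → Submodule ℝ E) (H : E → E) (σ Q : ℝ),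
        TubeG W c K → GSlice m μ T H → Intg m μ T → Ratio m μ CR →
        (∀ y, W y = 0 → |dfc W y| ≤ σ * (1 + ‖y‖) ^ q) →
        (∀ x, W x = 0 → ‖x‖ ≤ R₀ → th m μ x r₁ ≤ 5 / 4 * om m) →
        DD μ W 0 + TG μ T W 0 + dis μ T H + σ ^ 2 ≤ Q → Q ≤ Q₀ →
        ENNReal.ofReal (FA μ)
          ≤ gaussArea m {x | W x = 0} univ + ENNReal.ofReal (C * Q ^ (3 / 5 : ℝ)) := by
  obtain ⟨R₀, hR₀, r₂, hr₂, hprop⟩ := hprop
  obtain ⟨ε₂, hε₂, γ, hγ, hgood⟩ := good_points (E := E) hm hE c K CR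
  obtain ⟨C₂, hC₂, hnu⟩ := exists_nu_good (E := E) hE K
  obtain ⟨G, hG⟩ := gauss16 (E := E) (CR := CR) hm
  refine ⟨R₀, hR₀, r₂, hr₂, fun r₁ hr₁ hr₁₂ => ?_⟩
  set ε₁ : ℝ := min r₁ (min ε₂ 1) with hε₁
  have hε0 : 0 < ε₁ := by positivity
  have hεa : ε₁ ≤ ε₂ := (min_le_right _ _).trans (min_le_left _ _)
  have hεb : ε₁ ≤ 1 := (min_le_right _ _).trans (min_le_right _ _)
  obtain ⟨c₀, n, hc₀, hprop⟩ := hprop r₁ hr₁ hr₁₂ ε₁ hε0 (min_le_left _ _)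
  obtain ⟨R₁, hR₁, hR₀₁, hR₁c⟩ := exists_R1 R₀ hc₀ n
  set C : ℝ := max CR 1 with hC
  have hC0 : 0 < C := one_pos.trans_le (le_max_right _ _)
  set A₁ : ℝ := C₂ + 4 ^ q * (Real.exp (6 * q ^ 2) * |G|) with hA₁
  set A₂ : ℝ := Vale.Agent.P214.BES.nB E * (Real.exp 1 ^ 2 * C / γ) with hA₂
  have hA₁0 : 0 ≤ A₁ := by positivity
  have hA₂0 : 0 ≤ A₂ := by positivity
  refine ⟨Real.exp (-(5 / 16 * R₁ ^ 2)), Real.exp_pos _, A₁ + A₂ * (16 / ε₁ ^ 2) + |G|,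
    by positivity, fun W μ T H σ Q hW hS hI hCR hσ hth hQ hQ0 => ?_⟩
  have hfin := hS.mc.fin
  have main : ∀ Q', 0 < Q' → Q ≤ Q' → Q' ≤ Real.exp (-(5 / 16 * R₁ ^ 2)) →
      ENNReal.ofReal (FA μ) ≤ gaussArea m {x | W x = 0} univ
        + ENNReal.ofReal ((A₁ + A₂ * (16 / ε₁ ^ 2) + |G|) * Q' ^ (3 / 5 : ℝ)) := by
    intro Q' hQ'0 hQQ' hQ'
    obtain ⟨R, hR, rfl⟩ := exists_radius hR₁ hQ'0 hQ'
    have hR0 : 0 ≤ R := hR₁.trans hR
    have hQ1 := hQ.trans hQQ'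
    have hQ2 : DD μ W 0 + TG μ T W 0 + dis μ T H ≤ Real.exp (-(5 / 16 * R ^ 2)) := by
      linarith [sq_nonneg σ]
    have hen : en μ T H W (R + 3) ≤ c₀ / (R + 1) ^ n :=
      (en_le hW hS (by linarith) hQ2).trans (hR₁c R hR)
    have hth' := hprop R (hR₀₁.trans hR) W μ T H hW hS.toSlice hCR hth hen
    have hr0 : 0 < ε₁ / (R + 1) := by positivity
    have hr : ε₁ / (R + 1) * (R + 1) ≤ 1 := by
      rw [div_mul_cancel₀ _ (by positivity)]; exact hεb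
    obtain ⟨g1, g2⟩ := hgood R (ε₁ / (R + 1)) hR0 hr0 (by gcongr) W μ T H hW hS.toSlice hCR hth'
    have hCR' : Ratio m μ C := fun x r h0 h1 =>
      (hCR x r h0 h1).trans (mul_le_mul_of_nonneg_right (le_max_left _ _) (by positivity))
    have hGμ := hG μ hfin hCR
    have k1 := nu_univ_le hS hI (fun p hp => (g1 p hp).2) (fun G' hG' hgd htan =>
      hnu W c μ T H σ _ _ q hW hS (locFin_HS hE hW) (fun y hy ε hε => HS_lower hE hW hy hε) hσ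
        (mom_le hS q hGμ) hQ1 G' hG' (fun p hp => (g1 p (hgd p hp)).1)
        (fun p hp p' hp' => g2 p p' (hgd p hp) (hgd p' hp')) htan)
    have k2 := nu_bad hW hS hCR' hC0 hγ hR0 hr0 hr hQ2
    have k3 := nu_tail hR0 (hGμ.trans (ENNReal.ofReal_le_ofReal (le_abs_self G)))
    rw [nu_univ hS] at k1
    refine k1.trans ((add_le_add (add_le_add le_rfl k2) k3).trans ?_)
    have p1 := Real.exp_pos (-(5 / 16 * R ^ 2))
    have p2 := Real.exp_pos (-(3 / 16 * R ^ 2))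
    rw [add_assoc, add_assoc, ← ENNReal.ofReal_add (by positivity) (by positivity),
      ← ENNReal.ofReal_add (by positivity) (by positivity)]
    refine add_le_add le_rfl (ENNReal.ofReal_le_ofReal ?_)
    have e1 : Real.exp (-(5 / 16 * R ^ 2)) ^ (3 / 5 : ℝ) = Real.exp (-(3 / 16 * R ^ 2)) := by
      rw [← Real.exp_mul]; congr 1; ring
    have e2 : Real.exp (-(5 / 16 * R ^ 2)) ≤ Real.exp (-(3 / 16 * R ^ 2)) := by
      rw [Real.exp_le_exp]; linarith [sq_nonneg R]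
    have e3 : Real.exp (-(5 / 16 * R ^ 2)) / (ε₁ / (R + 1)) ^ 2
        ≤ 16 / ε₁ ^ 2 * Real.exp (-(3 / 16 * R ^ 2)) := by
      have a1 : (R + 1) ^ 2 ≤ 16 * Real.exp (R ^ 2 / 8) := by
        have := Real.add_one_le_exp (R ^ 2 / 8)
        nlinarith [sq_nonneg (R - 1)]
      have a2 : Real.exp (-(3 / 16 * R ^ 2))
          = Real.exp (R ^ 2 / 8) * Real.exp (-(5 / 16 * R ^ 2)) := by
        rw [← Real.exp_add]; congr 1; ring
      calc Real.exp (-(5 / 16 * R ^ 2)) / (ε₁ / (R + 1)) ^ 2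
          = (R + 1) ^ 2 * (Real.exp (-(5 / 16 * R ^ 2)) / ε₁ ^ 2) := by field_simp
        _ ≤ 16 * Real.exp (R ^ 2 / 8) * (Real.exp (-(5 / 16 * R ^ 2)) / ε₁ ^ 2) := by gcongr
        _ = _ := by rw [a2]; ring
    rw [e1]
    have b1 := mul_le_mul_of_nonneg_left e2 hA₁0
    have b2 := mul_le_mul_of_nonneg_left e3 hA₂0
    linarith
  have hD : 0 ≤ DD μ W 0 := integral_nonneg fun x => by have := rho_pos x; positivity
  have hT : 0 ≤ TG μ T W 0 := integral_nonneg fun x => by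
    have := rho_pos x; have := wt_pos 0 x; positivity
  have hd : 0 ≤ dis μ T H := integral_nonneg fun x => by have := rho_pos x; positivity
  have hQn : 0 ≤ Q := by linarith [sq_nonneg σ]
  rcases hQn.eq_or_lt with h0 | h0
  · refine le_trans (le_of_forall_rpow (Real.exp_pos _) fun Q' h1 h2 =>
      main Q' h1 (by linarith) h2) le_self_add
  · exact main Q h0 le_rfl hQ0

end Vale.Agent.P218DY
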